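import Vale.Agent.P270.H450.LKStmt
import Vale.Agent.P285.LK.H916.One

/-! `LogKobayashiNef` from the log Kobayashi theorems. -/

open scoped Manifold ContDiff ComplexOrder Topology

noncomputable section

namespace Vale.Agent.P270.H450

open Vale.Agent.P272.K
open Vale.Agent.P272
open Vale.Agent.P223.H959 (IsClosed11 NefForm NefAdjoint)
open Vale.Agent.P285.H560 Vale.Agent.P285.LK

section
variable {n : ℕ} {X : Type} [TopologicalSpace X] [ChartedSpace (Cm n) X]
  [IsManifold 𝓘(ℂ, Cm n) ω X]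

omit [IsManifold 𝓘(ℂ, Cm n) ω X] in
lemma closed11_of {b : Chart n X → Cm n → Matrix (Fin n) (Fin n) ℂ} (hb : INT.IsClosedForm b) :
    IsClosed11 b where
  smooth := hb.smooth
  change := hb.form
  closed e x h i j k := hb.closed e x h k i j

lemma closed_rest {k : ℕ} {β : Fin k → ℝ}
    {c : Fin k → Chart n X → Cm n → Matrix (Fin n) (Fin n) ℂ}
    {a : Chart n X → Cm n → Matrix (Fin n) (Fin n) ℂ} (hc : ∀ i, IsClosed11 (c i))
    (ha : IsClosed11 a) : IsClosed11 (nefRest β c a) := by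
  have h1 : INT.IsClosedForm fun (e : Chart n X) z => ∑ i, ((-(1 - β i) : ℝ) : ℂ) • c i e z :=
    H916.closed_sum fun i => (closedForm_of (hc i)).smul _
  have h2 := (closedForm_of ha).add h1
  have h3 : nefRest β c a = fun e z => a e z + ∑ i, ((-(1 - β i) : ℝ) : ℂ) • c i e z := by
    funext e z
    unfold nefRest
    rw [sub_eq_add_neg, ← Finset.sum_neg_distrib]
    congr 1
    refine Finset.sum_congr rfl fun i _ => ?_
    rw [Complex.ofReal_neg, neg_smul]
  rw [h3]
  exact closed11_of h2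

omit [IsManifold 𝓘(ℂ, Cm n) ω X] in
lemma form_eq {k : ℕ} {β : Fin k → ℝ}
    {c : Fin k → Chart n X → Cm n → Matrix (Fin n) (Fin n) ℂ}
    {a b : Chart n X → Cm n → Matrix (Fin n) (Fin n) ℂ} :
    (fun (e : Chart n X) (z : Cm n) => ∑ i, c i e z + b e z + nefRest β c a e z) =
      fun e z => ∑ i, (β i : ℂ) • c i e z + b e z + a e z := by
  funext e z
  have h1 : ∑ i, (β i : ℂ) • c i e z =
      ∑ i, c i e z - ∑ i, ((1 - β i : ℝ) : ℂ) • c i e z := by
    rw [← Finset.sum_sub_distrib]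
    refine Finset.sum_congr rfl fun i _ => ?_
    rw [Complex.ofReal_sub, Complex.ofReal_one, sub_smul, one_smul]
    abel
  unfold nefRest
  rw [h1]
  abel

end

/-- **Generalised pairs with a log hyperbolic divisor.** -/
theorem logKobayashiNef_of (h1 : LogHyperbolicBig) (h2 : LogOnePointBig) : LogKobayashiNef := by
  intro n X _ _ _ _ _ _ w b a k m s ψ c t θ β hw hD hb ht ha hadj hyp
  have hr : IsClosed11 (nefRest β c a) := closed_rest hD.closed ha
  rw [← form_eq] at hadj ⊢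
  rcases hyp with ⟨hn, h⟩ | ⟨hn, h⟩ | ⟨x, M, hg, hn, hx⟩
  · exact h1 n X w b _ k m s ψ c t θ hw hD hb ht hr hn hadj h
  · exact h2 n X w b _ k m s ψ c t θ hw hD hb ht hr hadj (Or.inr ⟨hn, h⟩)
  · exact h2 n X w b _ k m s ψ c t θ hw hD hb ht hr hadj (Or.inl ⟨x, M, hg, hn, hx⟩)

end Vale.Agent.P270.H450
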