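import Vale.Agent.P285.LK.S.Stmt2

/-! Statement: adjoint classes `K_X + B + M` on log hyperbolic pairs `(X, D)`, where the nef part `M`
and the boundary `B` together contain `D`. -/

open scoped Manifold ContDiff ComplexOrder Topology

namespace Vale.Agent.P270.H450

open Vale.Agent.P272.K
open Vale.Agent.P223.H959 (IsClosed11 NefForm NefAdjoint)
open Vale.Agent.P285.OP (BigAdjoint NefFormAt)
open Vale.Agent.P285.H560 (IsDivisorForm)
open Vale.Agent.P285.LK (IsSNCDivisor StrataBrody DiscBoundOff GoodPoint)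

/-- The class of `M - ∑ (1 - β_i) D_i`, where `a` is a form in the class of `M` and `c_i` a form in
the class of `D_i`. -/
def nefRest {n : ℕ} {X : Type} [TopologicalSpace X] [ChartedSpace (Cm n) X] {k : ℕ}
    (β : Fin k → ℝ) (c : Fin k → Chart n X → Cm n → Matrix (Fin n) (Fin n) ℂ)
    (a : Chart n X → Cm n → Matrix (Fin n) (Fin n) ℂ) :
    Chart n X → Cm n → Matrix (Fin n) (Fin n) ℂ :=
  fun e z => a e z - ∑ i, ((1 - β i : ℝ) : ℂ) • c i e z

/-- **Generalised pairs with a log hyperbolic divisor.** Let `X` be a compact connected complex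
manifold of dimension `n` with a Kähler metric `w`, `D = D_1 + ... + D_k` a reduced divisor with
simple normal crossings, `[c_i]` the class of `D_i`, `β_i` real numbers,
`B = ∑ β_i D_i + (1/m) div t`, `[b]` the class of `(1/m) div t`, `M = [a]` the class of a closed real
`(1,1)`-form, and suppose that `K_X + B + M` is nef. Suppose that one of the following holds.

1. `M - ∑ (1 - β_i) D_i` is nef, and the open strata of `(X, D)` contain no entire curves, or `X - D`
is hyperbolically embedded in `X`.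
2. `M - ∑ (1 - β_i) D_i` is nef, and the points of a nonempty open set are good for `(X, D)`.
3. One point `x` outside `D` and `div t` is good for `(X, D)`, and `M - ∑ (1 - β_i) D_i` is nef with
potentials bounded at `x`.

Then `(K_X + B + M)^n > 0`. -/
def LogKobayashiNef : Prop :=
  ∀ (n : ℕ) (X : Type) [TopologicalSpace X] [T2Space X] [CompactSpace X]
    [ConnectedSpace X] [ChartedSpace (Cm n) X] [IsManifold 𝓘(ℂ, Cm n) ω X]
    (w b a : Chart n X → Cm n → Matrix (Fin n) (Fin n) ℂ) (k m : ℕ)
    (s : Fin k → Chart n X → Cm n → ℂ) (ψ : Fin k → Chart n X → Cm n → ℝ)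
    (c : Fin k → Chart n X → Cm n → Matrix (Fin n) (Fin n) ℂ)
    (t : Chart n X → Cm n → ℂ) (θ : Chart n X → Cm n → ℝ) (β : Fin k → ℝ),
    IsKahler w → IsSNCDivisor s ψ c → IsClosed11 b → IsDivisorForm m b t θ →
    IsClosed11 a →
    NefAdjoint w (fun e z => ∑ i, (β i : ℂ) • c i e z + b e z + a e z) →
    ((NefForm w (nefRest β c a) ∧ (StrataBrody n X s ∨ ∃ M : ℝ, DiscBoundOff w s M)) ∨
      (NefForm w (nefRest β c a) ∧ ∃ (U : Set X) (M : ℝ), IsOpen U ∧ U.Nonempty ∧
        ∀ x ∈ U, GoodPoint w s c M x) ∨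
      (∃ (x : X) (M : ℝ), GoodPoint w s c M x ∧ NefFormAt w (nefRest β c a) x ∧
        ∃ e : Chart n X, At e x ∧ (∀ i, s i e (e x) ≠ 0) ∧ t e (e x) ≠ 0)) →
    BigAdjoint (fun e z => ∑ i, (β i : ℂ) • c i e z + b e z + a e z)

end Vale.Agent.P270.H450
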