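import Vale.Agent.P270.H450.OrbProof
import Vale.Agent.P285.LK.O.H916.All3
import Vale.Agent.P285.LK.O.H156.One
import Vale.Agent.P285.LK.O.H455.OT2F

/-! `OrbifoldNef` without hypotheses. -/

open scoped Manifold ContDiff

namespace Vale.Agent.P270.H450

open Vale.Agent.P272.K Vale.Agent.P285.LK.O

theorem orbifoldNef : OrbifoldNef :=
  orbifoldNef_of (H916.orbifoldBig_of6 fun n X => H156.ot6_of n X (H455.ot2 n X) H364.ot3 Row.ot4)

end Vale.Agent.P270.H450
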