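import Vale.Agent.P285.LK.O.Stmt3

/-! Statement: adjoint classes `K_X + B + M` where `B` (or `B` together with the nef part `M`)
contains an orbifold divisor `∑ (1 - 1/μ_i) D_i` with `(X, ∑ (1 - 1/μ_i) D_i)` hyperbolic. -/

open scoped Manifold ContDiff ComplexOrder Topology

namespace Vale.Agent.P270.H450

open Vale.Agent.P272.K
open Vale.Agent.P223.H959 (IsClosed11 NefForm NefAdjoint)
open Vale.Agent.P285.OP (BigAdjoint NefFormAt)
open Vale.Agent.P285.H560 (IsDivisorForm)
open Vale.Agent.P285.LK (IsSNCDivisor OrbifoldBrody OrbifoldBoundAt OrbifoldGood OffD)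

/-- The class of `M - ∑ (1 - 1/μ_i - β_i) D_i`, where `a` is a form in the class of `M` and `c_i` a
form in the class of `D_i`. For `β_i = 1 - 1/μ_i` this is the class of `M`. -/
noncomputable def orbRest {n : ℕ} {X : Type} [TopologicalSpace X] [ChartedSpace (Cm n) X] {k : ℕ}
    (μ : Fin k → ℕ) (β : Fin k → ℝ)
    (c : Fin k → Chart n X → Cm n → Matrix (Fin n) (Fin n) ℂ)
    (a : Chart n X → Cm n → Matrix (Fin n) (Fin n) ℂ) :
    Chart n X → Cm n → Matrix (Fin n) (Fin n) ℂ :=
  fun e z => a e z - ∑ i, ((1 - (μ i : ℝ)⁻¹ - β i : ℝ) : ℂ) • c i e z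

/-- **Generalised pairs with an orbifold divisor.** Let `X` be a compact connected complex manifold
of dimension `n` with a Kähler metric `w`, `D = D_1 + ... + D_k` a reduced divisor with simple normal
crossings, `[c_i]` the class of `D_i`, `μ_i ∈ {1, 2, ..., ∞}` (`0` stands for `∞`), `β_i` real
numbers, `B = ∑ β_i D_i + (1/m) div t`, `[b]` the class of `(1/m) div t`, `M = [a]` the class of a
closed real `(1,1)`-form, and suppose that `K_X + B + M` is nef. Put
`N = M - ∑ (1 - 1/μ_i - β_i) D_i`; so `N = M` if `β_i = 1 - 1/μ_i`. Suppose that one of the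
following holds for the orbifold `(X, Δ)`, `Δ = ∑ (1 - 1/μ_i) D_i`.

1. `N` is nef, and `(X, Δ)` is Brody hyperbolic or all orbifold discs centred off `D` satisfy
`|f'(0)|² ≤ C`.
2. One point `x` outside `D` and `div t` is good, and `N` is nef with potentials bounded at `x`.
3. `N` is nef, and the points outside `D` of a nonempty open set are good.

Then `(K_X + B + M)^n > 0`. -/
def OrbifoldNef : Prop :=
  ∀ (n : ℕ) (X : Type) [TopologicalSpace X] [T2Space X] [CompactSpace X]
    [ConnectedSpace X] [ChartedSpace (Cm n) X] [IsManifold 𝓘(ℂ, Cm n) ω X]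
    (w b a : Chart n X → Cm n → Matrix (Fin n) (Fin n) ℂ) (k m : ℕ)
    (s : Fin k → Chart n X → Cm n → ℂ) (ψ : Fin k → Chart n X → Cm n → ℝ)
    (c : Fin k → Chart n X → Cm n → Matrix (Fin n) (Fin n) ℂ) (μ : Fin k → ℕ)
    (t : Chart n X → Cm n → ℂ) (θ : Chart n X → Cm n → ℝ) (β : Fin k → ℝ),
    IsKahler w → IsSNCDivisor s ψ c → IsClosed11 b → IsDivisorForm m b t θ →
    IsClosed11 a →
    NefAdjoint w (fun e z => ∑ i, (β i : ℂ) • c i e z + b e z + a e z) →
    ((NefForm w (orbRest μ β c a) ∧ (OrbifoldBrody n X s μ ∨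
        ∃ M : ℝ, ∀ x : X, OffD s x → OrbifoldBoundAt w s μ M x)) ∨
      (∃ (x : X) (M : ℝ), OffD s x ∧ OrbifoldGood w s c μ M x ∧
        NefFormAt w (orbRest μ β c a) x ∧ ∃ e : Chart n X, At e x ∧ t e (e x) ≠ 0) ∨
      (NefForm w (orbRest μ β c a) ∧ ∃ (U : Set X) (M : ℝ), IsOpen U ∧ U.Nonempty ∧
        ∀ x ∈ U, OffD s x → OrbifoldGood w s c μ M x)) →
    BigAdjoint (fun e z => ∑ i, (β i : ℂ) • c i e z + b e z + a e z)

end Vale.Agent.P270.H450
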