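import Vale.Agent.P270.H450.LKProof
import Vale.Agent.P270.H450.OrbStmt

/-! `OrbifoldNef` from the orbifold theorem. -/

open scoped Manifold ContDiff ComplexOrder Topology

noncomputable section

namespace Vale.Agent.P270.H450

open Vale.Agent.P272.K
open Vale.Agent.P272
open Vale.Agent.P223.H959 (IsClosed11 NefForm NefAdjoint)
open Vale.Agent.P285.H560 Vale.Agent.P285.LK

section
variable {n : ℕ} {X : Type} [TopologicalSpace X] [ChartedSpace (Cm n) X]
  [IsManifold 𝓘(ℂ, Cm n) ω X]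

lemma closed_orbRest {k : ℕ} {μ : Fin k → ℕ} {β : Fin k → ℝ}
    {c : Fin k → Chart n X → Cm n → Matrix (Fin n) (Fin n) ℂ}
    {a : Chart n X → Cm n → Matrix (Fin n) (Fin n) ℂ} (hc : ∀ i, IsClosed11 (c i))
    (ha : IsClosed11 a) : IsClosed11 (orbRest μ β c a) := by
  have h1 : INT.IsClosedForm fun (e : Chart n X) z =>
      ∑ i, ((-(1 - (μ i : ℝ)⁻¹ - β i) : ℝ) : ℂ) • c i e z :=
    H916.closed_sum fun i => (closedForm_of (hc i)).smul _
  have h2 := (closedForm_of ha).add h1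
  have h3 : orbRest μ β c a =
      fun e z => a e z + ∑ i, ((-(1 - (μ i : ℝ)⁻¹ - β i) : ℝ) : ℂ) • c i e z := by
    funext e z
    unfold orbRest
    rw [sub_eq_add_neg, ← Finset.sum_neg_distrib]
    congr 1
    refine Finset.sum_congr rfl fun i _ => ?_
    rw [Complex.ofReal_neg, neg_smul]
  rw [h3]
  exact closed11_of h2

omit [IsManifold 𝓘(ℂ, Cm n) ω X] in
lemma orb_form_eq {k : ℕ} {μ : Fin k → ℕ} {β : Fin k → ℝ}
    {c : Fin k → Chart n X → Cm n → Matrix (Fin n) (Fin n) ℂ}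
    {a b : Chart n X → Cm n → Matrix (Fin n) (Fin n) ℂ} :
    (fun (e : Chart n X) (z : Cm n) =>
      ∑ i, ((1 - (μ i : ℝ)⁻¹ : ℝ) : ℂ) • c i e z + b e z + orbRest μ β c a e z) =
      fun e z => ∑ i, (β i : ℂ) • c i e z + b e z + a e z := by
  funext e z
  have h1 : ∑ i, (β i : ℂ) • c i e z =
      ∑ i, ((1 - (μ i : ℝ)⁻¹ : ℝ) : ℂ) • c i e z -
        ∑ i, ((1 - (μ i : ℝ)⁻¹ - β i : ℝ) : ℂ) • c i e z := by
    rw [← Finset.sum_sub_distrib]
    refine Finset.sum_congr rfl fun i _ => ?_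
    rw [← sub_smul, ← Complex.ofReal_sub]
    congr 2
    ring
  unfold orbRest
  rw [h1]
  abel

end

/-- **Generalised pairs with an orbifold divisor.** -/
theorem orbifoldNef_of (h : OrbifoldBig) : OrbifoldNef := by
  intro n X _ _ _ _ _ _ w b a k m s ψ c μ t θ β hw hD hb ht ha hadj hyp
  have hr : IsClosed11 (orbRest μ β c a) := closed_orbRest hD.closed ha
  rw [← orb_form_eq (μ := μ)] at hadj ⊢
  exact h n X w b _ k m s ψ c μ t θ hw hD hb ht hr hadj hyp

end Vale.Agent.P270.H450
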